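import Vale.Agent.P328.Gap3
import Vale.Agent.P328.Fiber
import Vale.Agent.P328.Ratio
import Vale.Agent.P328.Chain
import Vale.Agent.P328.Unif
import Vale.Agent.P328.Accept
import Vale.Agent.P328.Law
import Vale.Agent.P328.Machine

namespace Vale.Agent.Results.P328.Sampler

open Vale.Agent.P328 Finset

theorem result :
    ∃ (f : List ℕ × List ℕ × ℕ × List Bool → List (List ℕ)) (P : Polynomial ℕ),
      (∃ M : Turing.TM2ComputableInPolyTime codeIn codeOut f, ∀ k, Finite (M.tm.Γ k)) ∧
      ∀ (m n : ℕ) (r : Fin m → ℕ) (c : Fin n → ℕ), 0 < m → 0 < n → ∑ i, r i = ∑ j, c j → ∀ k : ℕ,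
        ∃ out : (Fin (P.eval (len r c + k)) → Bool) → Fin m → Fin n → ℕ,
          (∀ ρ, out ρ ∈ tables r c ∧ f (List.ofFn r, List.ofFn c, k, List.ofFn ρ) =
            List.ofFn fun i => List.ofFn (out ρ i)) ∧
          1 / 2 * ∑ X ∈ tables r c,
            |((univ.filter fun ρ => out ρ = X).card : ℝ) / 2 ^ P.eval (len r c + k) -
              1 / (tables r c).card| ≤ 1 / 2 ^ k :=
  final fun _ _ p k hN hk =>
    p.law (chain _ _) p.unif p.acc p.round (p.gap (fib _) (rat _)) k hN hk

end Vale.Agent.Results.P328.Sampler
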